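import Vale.Agent.P011Z.D1.Cover

/-!
The centraliser over a field in which some natural number is small.
-/

open Matrix Topology Polynomial
open scoped Matrix.Norms.Operator

namespace Vale.Agent.P011Z

variable {n : Type} [Fintype n] [DecidableEq n]

theorem norm_aeval_prod_sub {Ω A ι : Type} [NormedField Ω] [NormedRing A] [NormedAlgebra Ω A]
    [NormOneClass A] {Y : A} (hY : ‖Y‖ ≤ 1) {x : ι → Ω} {ε : ℝ} (hε : 0 ≤ ε) (s : Finset ι)
    (hx : ∀ i ∈ s, ‖x i‖ ≤ ε) :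
    ‖aeval Y (∏ i ∈ s, (X - C (x i))) - Y ^ s.card‖ ≤ (1 + ε) ^ s.card - 1 := by
  classical
  induction s using Finset.induction_on with
  | empty => simp
  | insert j s hj ih =>
    have h1 := ih fun i hi => hx i (Finset.mem_insert_of_mem hi)
    have h2 := hx j (Finset.mem_insert_self _ _)
    rw [Finset.prod_insert hj, Finset.card_insert_of_notMem hj, map_mul, map_sub, aeval_X, aeval_C]
    set Q := aeval Y (∏ i ∈ s, (X - C (x i)))
    have h3 : ‖Y ^ s.card‖ ≤ 1 := (norm_pow_le _ _).trans (pow_le_one₀ (norm_nonneg _) hY)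
    have h4 : ‖Q‖ ≤ (1 + ε) ^ s.card := by
      have h5 := norm_add_le (Q - Y ^ s.card) (Y ^ s.card)
      rw [sub_add_cancel] at h5
      linarith
    have e : (Y - algebraMap Ω A (x j)) * Q - Y ^ (s.card + 1) =
        Y * (Q - Y ^ s.card) - x j • Q := by
      rw [Algebra.smul_def, pow_succ']
      noncomm_ring
    have h5 : ‖Y * (Q - Y ^ s.card)‖ ≤ 1 * ((1 + ε) ^ s.card - 1) :=
      (norm_mul_le _ _).trans (mul_le_mul hY h1 (norm_nonneg _) zero_le_one)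
    have h6 : ‖x j • Q‖ ≤ ε * (1 + ε) ^ s.card := by
      rw [norm_smul]
      exact mul_le_mul h2 h4 (norm_nonneg _) hε
    rw [e, pow_succ]
    refine (norm_sub_le _ _).trans ?_
    linarith

theorem norm_map_algebraMap {F Ω : Type} [NormedField F] [NormedField Ω] [NormedAlgebra F Ω]
    (y : Matrix n n F) : ‖y.map (algebraMap F Ω)‖ = ‖y‖ := by
  simp [linfty_opNorm_def]

theorem norm_fc_le {Ω : Type} [NormedField Ω] {Y : Matrix n n Ω} {σ : Finset Ω}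
    {π : Ω → Matrix n n Ω} (h : IsSpec Y σ π) {f : Ω → Ω} {t : ℝ} (hf : ∀ μ ∈ σ, ‖f μ‖ ≤ t) :
    ‖h.fc f‖ ≤ (∑ μ ∈ σ, ‖π μ‖) * t := by
  rw [h.fc_apply, Finset.sum_mul]
  refine (norm_sum_le _ _).trans (Finset.sum_le_sum fun μ hμ => ?_)
  rw [norm_smul, mul_comm]
  exact mul_le_mul_of_nonneg_left (hf μ hμ) (norm_nonneg _)

theorem norm_pow_fc_le [Nonempty n] {Ω : Type} [NormedField Ω] {Y : Matrix n n Ω} {σ : Finset Ω}
    {π : Ω → Matrix n n Ω} (h : IsSpec Y σ π) {f : Ω → Ω} {ε : ℝ} (hε : 0 ≤ ε)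
    (hf : ∀ μ ∈ σ, ‖f μ‖ ≤ ε) (h1 : ‖h.fc f‖ ≤ 1) :
    ‖h.fc f ^ Fintype.card n‖ ≤ (1 + ε) ^ Fintype.card n - 1 := by
  classical
  have hc : σ.card ≤ Fintype.card n := by
    rw [← Y.charpoly_natDegree_eq_dim]
    refine le_trans (Finset.card_le_card fun μ hμ => ?_)
      ((Multiset.toFinset_card_le _).trans (card_roots' _))
    rw [Multiset.mem_toFinset, mem_roots Y.charpoly_monic.ne_zero]
    exact h.isRoot.1 hμ
  have h2 := norm_aeval_prod_sub h1 hε σ hf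
  have h3 : aeval (h.fc f) (∏ i ∈ σ, (X - C (f i))) = 0 := by
    rw [aeval_algHom_apply, h.fc_apply]
    refine Finset.sum_eq_zero fun μ hμ => ?_
    rw [map_prod, Finset.prod_apply, Finset.prod_eq_zero hμ (by simp), zero_smul]
  rw [h3, zero_sub, norm_neg] at h2
  obtain ⟨d, hd⟩ := Nat.exists_eq_add_of_le hc
  have h4 : ‖h.fc f ^ d‖ ≤ 1 := (norm_pow_le _ _).trans (pow_le_one₀ (norm_nonneg _) h1)
  have h5 : (1 + ε) ^ σ.card ≤ (1 + ε) ^ Fintype.card n := pow_le_pow_right₀ (by linarith) hc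
  rw [hd, pow_add, ← hd]
  refine (norm_mul_le _ _).trans ?_
  have h6 := mul_le_mul h2 h4 (norm_nonneg _) ((norm_nonneg _).trans h2)
  linarith

namespace Sys

variable {S : Sys n} {I : Type} [Fintype I] {k : I → ℤ}

theorem MaxG.near_of_eig {F : Type} [NontriviallyNormedField F] [CharZero F] [ProperSpace F]
    {e : I → Matrix n n F} (Ω : Type) [NormedField Ω] [NormedAlgebra F Ω] [IsGalois F Ω]
    [IsAlgClosed Ω] (h : S.MaxG e k) (hT : S.TrNd F) {p : ℕ} (hp0 : p ≠ 0)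
    (hp : ‖(p : F)‖ ≤ 1 / 2) {η₀ : ℝ} (hη₀ : 0 < η₀) : ∃ ε : ℝ, 0 < ε ∧ ∀ z ∈ S.Zc e,
      (∀ μ : Ω, ((z : Matrix n n F).map (algebraMap F Ω)).charpoly.IsRoot μ → ‖μ - 1‖ < ε) →
        ‖(z : Matrix n n F) - 1‖ ≤ η₀ := by
  classical
  rcases isEmpty_or_nonempty n with hn | hn
  · refine ⟨1, one_pos, fun z _ _ => ?_⟩
    rw [Subsingleton.elim ((z : Matrix n n F) - 1) 0, norm_zero]
    exact hη₀.le
  have hpF : (p : F) ≠ 0 := Nat.cast_ne_zero.2 hp0
  have hpn : 0 < ‖(p : F)‖ := norm_pos_iff.2 hpF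
  have hpΩ : ‖(p : Ω)‖ = ‖(p : F)‖ := by rw [← map_natCast (algebraMap F Ω), norm_algebraMap']
  obtain ⟨r, hr0, hr1, hK⟩ := exists_root_radius p (half_pos hpn)
  set η := min η₀ r with hη
  have hη0 : 0 < η := lt_min hη₀ hr0
  set η₁ := η * (‖(p : F)‖ / 2) with hη₁
  have hη₁0 : 0 < η₁ := by positivity
  have : ProperSpace (Matrix n n F) := FiniteDimensional.proper F _
  have hcomp : IsCompact (Metric.closedBall (1 : Matrix n n F) η ∩
      ((S.mon F : Set (Matrix n n F)) ∩ (⋂ i, {g | g * e i = e i * g}) ∩ {g | η₁ ≤ ‖g - 1‖})) := by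
    refine (isCompact_closedBall _ _).inter_right ((isClosed_mon.inter
      (isClosed_iInter fun i => isClosed_eq (by fun_prop) (by fun_prop))).inter
      (isClosed_le continuous_const (by fun_prop)))
  obtain ⟨δ, hδ0, hδ⟩ := hcomp.exists_forall_le' (a := 0)
    (f := fun g => ‖(g - 1) ^ Fintype.card n‖) (by fun_prop) (by
      rintro g ⟨-, ⟨h1, h2⟩, h3⟩
      refine norm_pos_iff.2 fun h4 => ?_
      have h5 := h.noUni hT (z := ⟨g, h1⟩) (fun i => Set.mem_iInter.1 h2 i) ⟨_, h4⟩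
      have h6 : g = 1 := congrArg Subtype.val h5
      rw [Set.mem_ofPred_eq, h6, sub_self, norm_zero] at h3
      linarith)
  obtain ⟨ε₁, hε₁, -, hε₂⟩ := exists_root_radius (Fintype.card n) (half_pos hδ0)
  refine ⟨min ε₁ r, lt_min hε₁ hr0, fun z hz hμ => ?_⟩
  set ε := min ε₁ r with hε
  have hε0 : 0 < ε := lt_min hε₁ hr0
  obtain ⟨σ, π, hπ⟩ := exists_spec ((z : Matrix n n F).map (algebraMap F Ω))
  have hz1 : (z : Matrix n n F).map (algebraMap F Ω) = hπ.fc id := h.semisimple hT hz hπ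
  have hz2 : ∀ j, ((z : Matrix n n F) ^ p ^ j - 1).map (algebraMap F Ω) =
      hπ.fc fun μ => μ ^ p ^ j - 1 := by
    intro j
    rw [Matrix.map_sub _ (map_sub _), Matrix.map_pow, Matrix.map_one _ (map_zero _) (map_one _),
      congrArg (· ^ p ^ j) hz1, ← map_pow, ← map_one hπ.fc, ← map_sub]
    rfl
  have hx : ∀ j, ∀ μ ∈ σ, ‖μ ^ p ^ j - 1‖ ≤ (3 / 4) ^ j * ε := by
    intro j μ hσ
    induction j with
    | zero => simpa using (hμ μ (hπ.isRoot.1 hσ)).le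
    | succ j ih =>
      have h1 : ‖μ ^ p ^ j - 1‖ ≤ r := ih.trans
        ((mul_le_of_le_one_left hε0.le (pow_le_one₀ (by norm_num) (by norm_num))).trans
          (min_le_right _ _))
      have h2 := (norm_pow_sub_le (𝕜 := Ω) hr0.le h1 p).trans
        (mul_le_mul_of_nonneg_left hK (norm_nonneg _))
      rw [add_sub_cancel, ← pow_mul, ← pow_succ] at h2
      have h3 := norm_add_le (μ ^ p ^ (j + 1) - 1 - (p : Ω) • (μ ^ p ^ j - 1))
        ((p : Ω) • (μ ^ p ^ j - 1))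
      rw [sub_add_cancel, norm_smul, hpΩ] at h3
      have h4 := norm_nonneg (μ ^ p ^ j - 1)
      rw [pow_succ (3 / 4 : ℝ)]
      nlinarith
  have hx' : ∀ j, ∀ μ ∈ σ, ‖μ ^ p ^ j - 1‖ ≤ ε := fun j μ hσ => (hx j μ hσ).trans
    (mul_le_of_le_one_left hε0.le (pow_le_one₀ (by norm_num) (by norm_num)))
  set C : ℝ := ∑ μ ∈ σ, ‖π μ‖ with hC
  have hC0 : 0 ≤ C := Finset.sum_nonneg fun _ _ => norm_nonneg _
  have hstep : ∀ j, ‖(z : Matrix n n F) ^ p ^ (j + 1) - 1‖ ≤ η₁ →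
      ‖(z : Matrix n n F) ^ p ^ j - 1‖ ≤ η₁ := by
    intro j h1
    have h2 : ‖(z : Matrix n n F) ^ p ^ j - 1‖ ≤ η := by
      refine norm_le_of_pow hpF hr0.le hK (min_le_right _ _) (C := C * r) (by positivity)
        (fun i => ?_) (by rwa [add_sub_cancel, ← pow_mul, ← pow_succ])
      rw [← pow_succ', ← norm_map_algebraMap (Ω := Ω), Matrix.map_pow, hz2, ← map_pow, mul_assoc,
        ← pow_succ']
      refine norm_fc_le hπ fun μ hσ => ?_
      rw [Pi.pow_apply, norm_pow]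
      exact pow_le_pow_left₀ (norm_nonneg _) ((hx' j μ hσ).trans (min_le_right _ _)) _
    by_contra h3
    have h4 := hδ ((z : Matrix n n F) ^ p ^ j) ⟨by rwa [mem_closedBall_iff_norm],
      ⟨pow_mem z.2 _, Set.mem_iInter.2 fun i => ((hz i).pow_left _).eq⟩, (not_le.1 h3).le⟩
    rw [← norm_map_algebraMap (Ω := Ω), Matrix.map_pow, hz2] at h4
    have h5 := norm_pow_fc_le hπ hε₁.le (fun μ hσ => (hx' j μ hσ).trans (min_le_left _ _)) (by
      rw [← hz2, norm_map_algebraMap]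
      exact h2.trans ((min_le_right _ _).trans hr1))
    have h6 : (1 : ℝ) ≤ Fintype.card n := by exact_mod_cast Fintype.card_pos
    have h7 : 0 ≤ (1 + ε₁) ^ Fintype.card n - 1 := (norm_nonneg _).trans h5
    nlinarith
  obtain ⟨j, hj⟩ := exists_pow_lt_of_lt_one (div_pos hη₁0 (by positivity : 0 < C * ε + 1))
    (by norm_num : (3 / 4 : ℝ) < 1)
  have h1 : ‖(z : Matrix n n F) ^ p ^ j - 1‖ ≤ η₁ := by
    rw [← norm_map_algebraMap (Ω := Ω), hz2]
    refine (norm_fc_le hπ (hx j)).trans ?_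
    rw [lt_div_iff₀ (by positivity)] at hj
    have h2 : (0 : ℝ) ≤ (3 / 4) ^ j := by positivity
    nlinarith
  have h2 : ‖(z : Matrix n n F) ^ p ^ 0 - 1‖ ≤ η₁ :=
    Nat.decreasingInduction (motive := fun j _ => ‖(z : Matrix n n F) ^ p ^ j - 1‖ ≤ η₁)
      (fun j _ hj => hstep j hj) h1 (Nat.zero_le j)
  rw [pow_zero, pow_one] at h2
  refine h2.trans ?_
  have h3 : η ≤ η₀ := min_le_left _ _
  rw [hη₁]
  nlinarith

theorem MaxG.d1_padic' {p : ℕ} [Fact p.Prime] {e : I → Matrix n n ℚ_[p]} (h : S.MaxG e k)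
    (hT : S.TrNd ℚ_[p]) {M : Subgroup (S.mon ℚ_[p])} (hM : (M : Set (S.mon ℚ_[p])) ∈ 𝓝 1) :
    M.relIndex (S.Z0 h.dec) ≠ 0 := by
  have hp : p.Prime := Fact.out
  obtain ⟨t, ht, htM⟩ := (mem_nhds_subtype _ _ _).1 hM
  obtain ⟨η, hη, hηt⟩ := Metric.nhds_basis_closedBall.mem_iff.1 ht
  obtain ⟨ε, hε, h1⟩ := h.near_of_eig (PadicAlgCl p) hT hp.ne_zero (by
    rw [Padic.norm_p, one_div]
    exact inv_anti₀ (by norm_num) (by exact_mod_cast hp.two_le)) hη
  obtain ⟨A, hA⟩ := h.cover' (PadicAlgCl p) (iso_padic p) hε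
  refine relIndex_of_cover A fun z hz => ?_
  obtain ⟨a, ha, haZ, h2⟩ := hA z hz
  exact ⟨a, ha, haZ, htM (hηt (mem_closedBall_iff_norm.2
    (h1 _ (mul_mem (inv_mem haZ.1) hz.1) h2)))⟩

end Sys

end Vale.Agent.P011Z
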