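import Vale.Agent.P011Z.D1.Cover

/-!
The centraliser over the real numbers.
-/

open Matrix Topology

namespace Vale.Agent.P011Z

variable {n : Type} [Fintype n] [DecidableEq n]

theorem dl_smul {F : Type} [Field F] {E : Matrix n n F} (hE : E * E = E) (c : F) :
    (c • E + (1 - E)).det = c ^ E.rank := by
  have hid : IsIdempotentElem (Matrix.toLin' E) := by
    change Matrix.toLin' E ∘ₗ Matrix.toLin' E = _
    rw [← Matrix.toLin'_mul, hE]
  have hp := LinearMap.IsIdempotentElem.isProj_range _ hid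
  have h1 := hp.eq_conj_prodMap
  set q := (LinearMap.range (toLin' E)).prodEquivOfIsCompl (LinearMap.ker (toLin' E)) hp.isCompl
  have h2 : Matrix.toLin' (c • E + (1 - E)) = q.conj (LinearMap.prodMap (c • LinearMap.id)
      LinearMap.id) := by
    have h3 : LinearMap.prodMap (c • LinearMap.id) LinearMap.id =
        c • (LinearMap.prodMap (LinearMap.id : LinearMap.range (toLin' E) →ₗ[F] _)
          (0 : LinearMap.ker (toLin' E) →ₗ[F] LinearMap.ker (toLin' E))) +
        (LinearMap.id - LinearMap.prodMap LinearMap.id 0) := by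
      ext <;> simp
    rw [h3, map_add q.conj, map_smul q.conj, map_sub q.conj, ← h1, LinearEquiv.conj_id, map_add,
      map_smul, map_sub, toLin'_one]
  rw [← LinearMap.det_toLin', h2, LinearEquiv.conj_apply, LinearMap.comp_assoc,
    LinearMap.det_conj, LinearMap.det_prodMap, LinearMap.det_smul, LinearMap.det_id,
    LinearMap.det_id, mul_one, mul_one]
  rfl

theorem isGalois_real_complex : IsGalois ℝ ℂ := by
  have : IsAlgClosure ℝ ℂ := ⟨inferInstance, inferInstance⟩
  infer_instance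

namespace Sys

variable {S : Sys n} {I : Type} [Fintype I] {k : I → ℤ}

/-- A curve through one stays in an open subgroup. -/
theorem mem_of_curve {M : Subgroup (S.mon ℝ)} (hM : (M : Set (S.mon ℝ)) ∈ 𝓝 1)
    {w : ℝ → Matrix n n ℝ} (hw : Continuous w) (hm : ∀ t, w t ∈ S.mon ℝ) (h0 : w 0 = 1) (t : ℝ) :
    (⟨w t, hm t⟩ : S.mon ℝ) ∈ M := by
  have ho : IsOpen (M : Set (S.mon ℝ)) := M.isOpen_of_mem_nhds hM
  have hc : IsClopen (M : Set (S.mon ℝ)) := ⟨M.isClosed_of_isOpen ho, ho⟩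
  have h1 := (hc.preimage (hw.subtype_mk hm)).eq_univ ⟨0, by
    have e : (⟨w 0, hm 0⟩ : S.mon ℝ) = 1 := Subtype.ext h0
    simp only [Set.mem_preimage, e]
    exact M.one_mem⟩
  exact Set.eq_univ_iff_forall.1 h1 t

theorem exists_deg_bound (S : Sys n) : ∃ D : ℕ, ∀ τ ∈ S.T, τ.1 ≤ D := by
  obtain ⟨D, hD⟩ := (S.fin.image Sigma.fst).bddAbove
  exact ⟨D, fun τ hτ => hD ⟨τ, hτ, rfl⟩⟩

theorem MaxG.mem_of_eig_real {e : I → Matrix n n ℝ} (h : S.MaxG e k) (hT : S.TrNd ℝ)
    {M : Subgroup (S.mon ℝ)} (hM : (M : Set (S.mon ℝ)) ∈ 𝓝 1) : ∃ ε : ℝ, 0 < ε ∧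
      ∀ z ∈ S.Zc e, (∀ μ : ℂ, ((z : Matrix n n ℝ).map (algebraMap ℝ ℂ)).charpoly.IsRoot μ →
        ‖μ - 1‖ < ε) → z ∈ M := by
  classical
  have := isGalois_real_complex
  obtain ⟨D, hD⟩ := S.exists_deg_bound
  refine ⟨1 / (2 * (D + 1)), by positivity, fun z hz hμ => ?_⟩
  obtain ⟨σ, π, hπ⟩ := exists_spec ((z : Matrix n n ℝ).map (algebraMap ℝ ℂ))
  have hD0 : (0 : ℝ) ≤ D := Nat.cast_nonneg _
  have hhalf : ∀ μ ∈ σ, ‖μ - 1‖ ≤ 1 / 2 := fun μ hσ => (hμ μ (hπ.isRoot.1 hσ)).le.trans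
    (one_div_le_one_div_of_le (by norm_num) (by linarith))
  have hne : ∀ μ ∈ σ, μ ≠ 0 := fun μ hσ => hπ.ne_zero (by
    rw [← RingHom.mapMatrix_apply, ← RingHom.map_det]
    exact (map_ne_zero _).2 (det_ne z.2)) hσ
  have hlog : ∀ μ ∈ σ, ‖Complex.log μ‖ ≤ 1 / (D + 1) := by
    intro μ hσ
    have h1 := Complex.norm_log_one_add_half_le_self (hhalf μ hσ)
    rw [add_sub_cancel] at h1
    have h2 := (hμ μ (hπ.isRoot.1 hσ)).le
    have h3 : (1 : ℝ) / (D + 1) = 2 * (1 / (2 * (D + 1))) := by field_simp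
    have h4 := norm_nonneg (μ - 1)
    linarith
  let Z : ℝ → Matrix n n ℂ := fun t => ∑ μ ∈ σ, Complex.exp (t * Complex.log μ) • π μ
  have hZ : ∀ t, Z t ∈ S.mon ℂ := by
    intro t
    have h1 := hπ.isDecC.sum_mem_mon (S := S) (fun μ => Complex.exp (t * Complex.log μ)) (by
      rintro a c ⟨τ, hτ, x, hx⟩
      have h2 : ∏ r, (c r : ℂ) = 1 := by
        by_contra h3
        exact hx (hπ.ev_eq_zero_of_mon (map_mem_mon _ z.2) hτ (fun r => (c r : ℂ)) h3 x)
      have h3 : Complex.exp (∑ r, Complex.log (c r)) = 1 := by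
        rw [Complex.exp_sum, ← h2]
        exact Finset.prod_congr rfl fun r _ => Complex.exp_log (hne _ (c r).2)
      have h4 : ‖∑ r, Complex.log (c r)‖ ≤ 1 := by
        refine (norm_sum_le _ _).trans ((Finset.sum_le_card_nsmul _ _ _
          fun r _ => hlog _ (c r).2).trans ?_)
        have h5 : (a : ℝ) ≤ D := by exact_mod_cast hD _ hτ
        rw [Finset.card_univ, Fintype.card_fin, nsmul_eq_mul, mul_one_div,
          div_le_one (by positivity)]
        linarith
      obtain ⟨m, hm⟩ := Complex.exp_eq_one_iff.1 h3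
      have h5 : m = 0 := by
        by_contra h6
        have h7 : (1 : ℝ) ≤ |(m : ℝ)| := by exact_mod_cast Int.one_le_abs h6
        rw [hm] at h4
        simp only [norm_mul, Complex.norm_intCast, Complex.norm_ofNat, Complex.norm_real,
          Complex.norm_I, Real.norm_eq_abs, abs_of_pos Real.pi_pos] at h4
        nlinarith [Real.two_le_pi]
      rw [← Complex.exp_sum, ← Finset.mul_sum, hm, h5]
      simp)
    rwa [Finset.sum_coe_sort σ fun μ => Complex.exp (t * Complex.log μ) • π μ] at h1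
  have hconj : ∀ μ, (π μ).map (starRingEnd ℂ) = π (starRingEnd ℂ μ) := fun μ =>
    hπ.map_eq Complex.conjAe.toRingEquiv (by ext i j; simp) μ
  have hσ : ∀ μ ∈ σ, starRingEnd ℂ μ ∈ σ := by
    intro μ hμσ
    rw [← hπ.ne, ← hconj]
    intro h0
    refine (hπ.ne μ).2 hμσ ?_
    ext i j
    simpa using congrFun (congrFun h0 i) j
  have hreal : ∀ t, ((Z t).map Complex.re).map (algebraMap ℝ ℂ) = Z t := by
    intro t
    ext i j
    refine Complex.conj_eq_iff_re.1 ?_
    simp only [Matrix.sum_apply, Matrix.smul_apply, smul_eq_mul, map_sum, map_mul]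
    refine Finset.sum_nbij' (starRingEnd ℂ) (starRingEnd ℂ) hσ hσ (fun μ _ => Complex.conj_conj μ)
      (fun μ _ => Complex.conj_conj μ) fun μ hμσ => ?_
    have h1 : μ.arg ≠ Real.pi := by
      intro h2
      have h3 := (Complex.arg_eq_pi_iff.1 h2).1
      have h4 := (Complex.abs_re_le_norm (μ - 1)).trans (hhalf μ hμσ)
      rw [Complex.sub_re, Complex.one_re, abs_le] at h4
      linarith [h4.1]
    rw [← hconj, Matrix.map_apply, ← Complex.exp_conj, map_mul, Complex.conj_ofReal,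
      Complex.log_conj _ h1]
  have hmem : ∀ t, (Z t).map Complex.re ∈ S.mon ℝ := fun t =>
    mem_mon_of_map (algebraMap ℝ ℂ) (by rw [hreal]; exact hZ t)
  have hinj : Function.Injective fun y : Matrix n n ℝ => y.map (algebraMap ℝ ℂ) :=
    Matrix.map_injective (algebraMap ℝ ℂ).injective
  have h1 := mem_of_curve hM (w := fun t => (Z t).map Complex.re) (by
    refine Continuous.matrix_map ?_ Complex.continuous_re
    exact continuous_finsetSum _ fun μ _ =>
      Continuous.fun_smul (by fun_prop) continuous_const) hmem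
    (hinj (by
      simp only [hreal, Z]
      simp [hπ.sum])) 1
  have h2 : (Z 1).map Complex.re = z := hinj (by
    simp only [hreal, Z]
    rw [h.semisimple hT hz hπ]
    exact Finset.sum_congr rfl fun μ hμσ => by
      rw [Complex.ofReal_one, one_mul, Complex.exp_log (hne μ hμσ)])
  have h3 : (⟨(Z 1).map Complex.re, hmem 1⟩ : S.mon ℝ) = z := Subtype.ext h2
  rwa [h3] at h1

theorem MaxG.d1_real' {e : I → Matrix n n ℝ} (h : S.MaxG e k) (hT : S.TrNd ℝ)
    {M : Subgroup (S.mon ℝ)} (hM : (M : Set (S.mon ℝ)) ∈ 𝓝 1) :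
    M.relIndex (S.Z0 h.dec) ≠ 0 := by
  have := isGalois_real_complex
  obtain ⟨ε, hε, h1⟩ := h.mem_of_eig_real hT hM
  obtain ⟨A, hA⟩ := h.cover' ℂ iso_complex hε
  refine relIndex_of_cover A fun z hz => ?_
  obtain ⟨a, ha, haZ, h2⟩ := hA z hz
  exact ⟨a, ha, haZ, h1 _ (mul_mem (inv_mem haZ.1) hz.1) h2⟩

theorem MaxG.d2_real' {e : I → Matrix n n ℝ} (h : S.MaxG e k)
    {M : Subgroup (S.mon ℝ)} (hM : (M : Set (S.mon ℝ)) ∈ 𝓝 1) :
    S.Zc e ≤ (M ⊓ S.Zc e) ⊔ S.Z0 h.dec := by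
  have := isGalois_real_complex
  intro z hz
  let l : I → ℝ := fun i => Real.log ‖dl (e i) (z : Matrix n n ℝ)‖ / (e i).rank
  let w : ℝ → Matrix n n ℝ := fun t => ∑ i, Real.exp (t * l i) • e i
  have hm : ∀ t, w t ∈ S.mon ℝ := fun t => h.dec.sum_mem_mon _ fun c hc => by
    rw [← Real.exp_sum, ← Finset.mul_sum, h.rel_log ℂ iso_complex hz hc, mul_zero, Real.exp_zero]
  have h1 := mem_of_curve hM (w := w)
    (continuous_finsetSum _ fun i _ => Continuous.fun_smul (by fun_prop) continuous_const) hm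
    (by simp [w, h.dec.sum]) 1
  set a : S.mon ℝ := ⟨w 1, hm 1⟩ with ha
  have haZ : a ∈ S.Zc e := fun i => Commute.sum_left _ _ _ fun j _ => Commute.smul_left (by
    by_cases hij : j = i
    · rw [hij]
      exact Commute.refl _
    · exact (h.dec.orth _ _ hij).trans (h.dec.orth _ _ (Ne.symm hij)).symm) _
  have hb : a⁻¹ * z ∈ S.Zc e := mul_mem (inv_mem haZ) hz
  have h2 : a⁻¹ * z ∈ S.Z0 h.dec := by
    refine ⟨hb, fun i => ?_⟩
    have h3 := dl_mul (y := (a : Matrix n n ℝ)) (h.dec.idem i) (hb i)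
    rw [← Submonoid.coe_mul, mul_inv_cancel_left] at h3
    have h4 : dl (e i) (a : Matrix n n ℝ) = Real.exp (1 * l i) ^ (e i).rank := by
      rw [← dl_smul (h.dec.idem i), dl, mul_assoc]
      congr 2
      change e i * (w 1 * e i) = _
      rw [h.dec.sum_mul, mul_smul_comm, h.dec.idem]
    have h5 : dl (e i) (z : Matrix n n ℝ) ≠ 0 := by
      have h6 := dl_mul (y := ((z⁻¹ : S.mon ℝ) : Matrix n n ℝ)) (h.dec.idem i) (hz i)
      rw [coe_inv_mul, dl_one (h.dec.idem i)] at h6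
      exact right_ne_zero_of_mul_eq_one h6.symm
    have h6 : ((e i).rank : ℝ) ≠ 0 := by
      rw [Nat.cast_ne_zero]
      intro h7
      have h8 := Submodule.finrank_eq_zero.1 h7
      rw [LinearMap.range_eq_bot] at h8
      refine h.ne i (Matrix.toLin'.injective ?_)
      rw [map_zero]
      exact h8
    have h7 : Real.exp (1 * l i) ^ (e i).rank = ‖dl (e i) (z : Matrix n n ℝ)‖ := by
      rw [← Real.exp_nat_mul, one_mul, mul_div_cancel₀ _ h6, Real.exp_log (norm_pos_iff.2 h5)]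
    have h8 := congrArg norm h3
    rw [norm_mul, h4, h7, norm_norm] at h8
    exact (mul_eq_left₀ (norm_ne_zero_iff.2 h5)).1 h8.symm
  rw [← mul_inv_cancel_left a z]
  exact Subgroup.mul_mem_sup ⟨h1, haZ⟩ h2

end Sys

end Vale.Agent.P011Z
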