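import Mathlib

/-!
Small power sums give small numbers; roots of elements near one in a normed algebra.
-/

namespace Vale.Agent.P011Z

open Finset

theorem norm_esymm_le {Ω ι : Type} [NormedField Ω] [Fintype ι] (x : ι → Ω) (hx : ∀ i, ‖x i‖ ≤ 2)
    (k : ℕ) : ‖MvPolynomial.aeval x (MvPolynomial.esymm ι Ω k)‖ ≤
      2 ^ Fintype.card ι * 2 ^ Fintype.card ι := by
  classical
  simp only [MvPolynomial.esymm, map_sum, map_prod, MvPolynomial.aeval_X]
  refine (norm_sum_le _ _).trans ?_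
  refine (sum_le_card_nsmul _ _ ((2 : ℝ) ^ Fintype.card ι) fun t ht => ?_).trans ?_
  · rw [norm_prod]
    refine (prod_le_prod (fun i _ => norm_nonneg _) fun i _ => hx i).trans ?_
    rw [prod_const]
    exact pow_le_pow_right₀ (by norm_num) (card_le_univ t)
  · rw [nsmul_eq_mul]
    refine mul_le_mul_of_nonneg_right ?_ (by positivity)
    have h1 : (powersetCard k (univ : Finset ι)).card ≤ 2 ^ Fintype.card ι := by
      rw [← card_univ, ← card_powerset]
      exact card_le_card fun t ht => mem_powerset.2 (mem_powersetCard.1 ht).1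
    exact_mod_cast h1

/-- Small power sums give small numbers. -/
theorem newton_small (Ω : Type) [NormedField Ω] [CharZero Ω] (N : ℕ) {ε : ℝ} (hε : 0 < ε) :
    ∃ δ : ℝ, 0 < δ ∧ ∀ (ι : Type) [Fintype ι] (x : ι → Ω), Fintype.card ι = N →
      (∀ i, ‖x i‖ ≤ 2) → (∀ j, ‖∑ i, x i ^ (j + 1)‖ ≤ 2 ^ j * δ) → ∀ i, ‖x i‖ < ε := by
  classical
  obtain ⟨c, hc0, hc⟩ : ∃ c : ℝ, 0 < c ∧ ∀ k ∈ range N, c ≤ ‖((k + 1 : ℕ) : Ω)‖ := by
    have h := (range N).finite_toSet.isCompact.exists_forall_le'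
      (f := fun k : ℕ => ‖((k + 1 : ℕ) : Ω)‖) continuous_of_discreteTopology.continuousOn (a := 0)
      fun k _ => norm_pos_iff.2 (Nat.cast_ne_zero.2 (Nat.succ_ne_zero k))
    exact h
  set A : ℝ := (N + 1) * (2 ^ N * 2 ^ N * 2 ^ N) with hA
  have hA0 : 0 < A := by positivity
  refine ⟨c * ε ^ N / (2 * A * ((N + 1) * 2 ^ N)), by positivity, fun ι _ x hN hx hp i => ?_⟩
  set δ := c * ε ^ N / (2 * A * ((N + 1) * 2 ^ N)) with hδ
  have hδ0 : 0 < δ := by positivity
  set E : ℕ → Ω := fun k => MvPolynomial.aeval x (MvPolynomial.esymm ι Ω k) with hE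
  have hE1 : ∀ k, ‖E k‖ ≤ 2 ^ N * 2 ^ N := fun k => hN ▸ norm_esymm_le x hx k
  have hE2 : ∀ k ∈ range N, ‖E (k + 1)‖ ≤ A * δ / c := by
    intro k hk
    have h1 := congrArg (MvPolynomial.aeval x) (MvPolynomial.mul_esymm_eq_sum ι Ω (k + 1))
    simp only [map_mul, map_sum, map_pow, map_neg, map_one, map_natCast, MvPolynomial.psum,
      MvPolynomial.aeval_X] at h1
    have h2 := congrArg norm h1
    rw [norm_mul, norm_mul, norm_pow, norm_neg, norm_one, one_pow, one_mul] at h2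
    have hkN := mem_range.1 hk
    have h3 : ‖∑ a ∈ antidiagonal (k + 1) with a.1 < k + 1,
        (-1) ^ a.1 * E a.1 * ∑ i, x i ^ a.2‖ ≤ A * δ := by
      refine (norm_sum_le _ _).trans ?_
      refine (sum_le_card_nsmul _ _ (2 ^ N * 2 ^ N * (2 ^ N * δ)) fun a ha => ?_).trans ?_
      · obtain ⟨ha1, ha2⟩ := mem_filter.1 ha
        have ha3 := mem_antidiagonal.1 ha1
        obtain ⟨j, hj⟩ : ∃ j, a.2 = j + 1 := ⟨a.2 - 1, by omega⟩
        rw [norm_mul, norm_mul, norm_pow, norm_neg, norm_one, one_pow, one_mul, hj]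
        refine mul_le_mul (hE1 _) ((hp j).trans ?_) (norm_nonneg _) (by positivity)
        exact mul_le_mul_of_nonneg_right (pow_le_pow_right₀ (by norm_num) (by omega)) hδ0.le
      · have h4 : (#{a ∈ antidiagonal (k + 1) | a.1 < k + 1} : ℝ) ≤ N + 1 := by
          have h5 : #{a ∈ antidiagonal (k + 1) | a.1 < k + 1} ≤ N + 1 :=
            (card_filter_le _ _).trans (by rw [Nat.card_antidiagonal]; omega)
          exact_mod_cast h5
        rw [nsmul_eq_mul, hA]
        calc _ ≤ (N + 1) * (2 ^ N * 2 ^ N * (2 ^ N * δ)) :=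
              mul_le_mul_of_nonneg_right h4 (by positivity)
          _ = _ := by ring
    rw [le_div_iff₀ hc0, mul_comm]
    exact (mul_le_mul_of_nonneg_right (hc k hk) (norm_nonneg _)).trans (h2.le.trans h3)
  have hV : x i ^ N = -∑ k ∈ range N, (-1) ^ (k + 1) * (E (k + 1) * x i ^ (N - (k + 1))) := by
    have h1 := congrArg (Polynomial.eval (x i))
      (Multiset.prod_X_sub_X_eq_sum_esymm (univ.val.map x))
    rw [Polynomial.eval_multiset_prod, Multiset.prod_eq_zero (by
      simp only [Multiset.mem_map]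
      exact ⟨_, ⟨_, ⟨i, mem_univ i, rfl⟩, rfl⟩, by simp⟩)] at h1
    simp only [Multiset.card_map, card_val, card_univ, hN, Polynomial.eval_finsetSum,
      Polynomial.eval_mul, Polynomial.eval_pow, Polynomial.eval_neg, Polynomial.eval_one,
      Polynomial.eval_C, Polynomial.eval_X, ← MvPolynomial.aeval_esymm_eq_multiset_esymm ι Ω] at h1
    rw [sum_range_succ'] at h1
    simp only [pow_zero, MvPolynomial.esymm_zero, map_one, one_mul, Nat.sub_zero] at h1
    exact eq_neg_of_add_eq_zero_right h1.symm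
  have h4 : ‖x i‖ ^ N ≤ N * (A * δ / c * 2 ^ N) := by
    rw [← norm_pow, hV, norm_neg]
    refine (norm_sum_le _ _).trans ?_
    refine (sum_le_card_nsmul _ _ (A * δ / c * 2 ^ N) fun k hk => ?_).trans ?_
    · rw [norm_mul, norm_mul, norm_pow, norm_neg, norm_one, one_pow, one_mul, norm_pow]
      refine mul_le_mul (hE2 k hk) ((pow_le_pow_left₀ (norm_nonneg _) (hx i) _).trans
        (pow_le_pow_right₀ (by norm_num) (by omega))) (by positivity) (by positivity)
    · rw [card_range, nsmul_eq_mul]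
  have h5 : (N + 1) * (A * δ / c * 2 ^ N) = ε ^ N / 2 := by
    rw [hδ]
    field_simp
  have h6 : 0 < ε ^ N := by positivity
  have h7 : 0 ≤ A * δ / c * 2 ^ N := by positivity
  refine lt_of_pow_lt_pow_left₀ N hε.le ?_
  nlinarith

section root

variable {A : Type} [NormedRing A]

/-- `x * y ^ i` is of size `t * r ^ i`. -/
def Sz (y : A) (r : ℝ) (x : A) (t : ℝ) : Prop := ∀ i : ℕ, ‖x * y ^ i‖ ≤ t * r ^ i

/-- Multiplication by `s` has norm at most `a` for the sizes `Sz`. -/
def Sm (y : A) (r : ℝ) (s : A) (a : ℝ) : Prop :=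
  ∀ x t, 0 ≤ t → Sz y r x t → Sz y r (x * s) (t * a)

variable {y : A} {r : ℝ}

theorem Sz.add {x x' : A} {t t' : ℝ} (h : Sz y r x t) (h' : Sz y r x' t') :
    Sz y r (x + x') (t + t') := fun i => by
  rw [add_mul, add_mul]
  exact (norm_add_le _ _).trans (add_le_add (h i) (h' i))

theorem Sz.norm_le {x : A} {t : ℝ} (h : Sz y r x t) : ‖x‖ ≤ t := by simpa using h 0

theorem Sm.add {s s' : A} {a a' : ℝ} (h : Sm y r s a) (h' : Sm y r s' a') :
    Sm y r (s + s') (a + a') := fun x t ht hx => by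
  rw [mul_add, mul_add]
  exact (h x t ht hx).add (h' x t ht hx)

theorem Sm.mul {s s' : A} {a a' : ℝ} (ha : 0 ≤ a) (h : Sm y r s a) (h' : Sm y r s' a') :
    Sm y r (s * s') (a * a') := fun x t ht hx => by
  rw [← mul_assoc, ← mul_assoc]
  exact h' _ _ (mul_nonneg ht ha) (h x t ht hx)

theorem sm_zero : Sm y r 0 0 := fun x t _ _ i => by simp

theorem sm_self : Sm y r y r := fun x t _ hx i => by
  rw [mul_assoc, ← pow_succ', mul_assoc, ← pow_succ']
  exact hx (i + 1)

theorem sm_of_norm (hr : 0 ≤ r) {b : A} (hb : Commute b y) {a : ℝ} (ha : ‖b‖ ≤ a) :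
    Sm y r b a := fun x t ht hx i => by
  rw [mul_assoc, (hb.pow_right i).eq, ← mul_assoc, mul_right_comm]
  exact (norm_mul_le _ _).trans (mul_le_mul (hx i) ha (norm_nonneg _) (by positivity))

theorem Sm.mul_sub_one {u v : A} {a b : ℝ} (ha : 1 ≤ a) (h : Sm y r (u - 1) (a - 1))
    (h' : Sm y r (v - 1) (b - 1)) : Sm y r (u * v - 1) (a * b - 1) := by
  have h1 := ((h.mul (sub_nonneg.2 ha) h').add h).add h'
  have e1 : (u - 1) * (v - 1) + (u - 1) + (v - 1) = u * v - 1 := by noncomm_ring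
  have e2 : (a - 1) * (b - 1) + (a - 1) + (b - 1) = a * b - 1 := by ring
  rwa [e1, e2] at h1

theorem Sm.pow_sub_one (hr : 0 ≤ r) {s : A} (h : Sm y r s r) (i : ℕ) :
    Sm y r ((1 + s) ^ i - 1) ((1 + r) ^ i - 1) := by
  induction i with
  | zero => simpa using sm_zero
  | succ i ih =>
    rw [pow_succ, pow_succ]
    exact ih.mul_sub_one (one_le_pow₀ (by linarith)) (by simpa using h)

theorem Sm.mono (hr : 0 ≤ r) {s : A} {a a' : ℝ} (h : Sm y r s a) (ha : a ≤ a') : Sm y r s a' :=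
  fun x t ht hx i => (h x t ht hx i).trans
    (mul_le_mul_of_nonneg_right (mul_le_mul_of_nonneg_left ha ht) (by positivity))

theorem Sm.sum {ι : Type} (u : Finset ι) {s : ι → A} {a : ℝ} (h : ∀ i ∈ u, Sm y r (s i) a) :
    Sm y r (∑ i ∈ u, s i) (u.card * a) := by
  classical
  induction u using Finset.induction_on with
  | empty => simpa using sm_zero
  | insert j u hj ih =>
    rw [sum_insert hj, card_insert_of_notMem hj, Nat.cast_succ, add_mul, one_mul, add_comm _ a]
    exact (h j (mem_insert_self _ _)).add (ih fun i hi => h i (mem_insert_of_mem hi))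

/-- The difference of two powers. -/
theorem exists_sm_pow (hr : 0 ≤ r) {b : A} (hb : Commute b y) (hb' : ‖b‖ ≤ r) (p : ℕ) :
    ∃ s, Sm y r s (p * ((1 + r) ^ p - 1)) ∧
      (1 + y) ^ p - (1 + b) ^ p = (y - b) * p + (y - b) * s := by
  have hc : Commute (1 + y) (1 + b) :=
    (Commute.one_left _).add_left ((Commute.one_right _).add_right hb.symm)
  refine ⟨∑ i ∈ range p, ((1 + y) ^ i * (1 + b) ^ (p - 1 - i) - 1), ?_, ?_⟩
  · have h1 := Sm.sum (y := y) (r := r) (range p) (a := (1 + r) ^ p - 1)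
      (s := fun i => (1 + y) ^ i * (1 + b) ^ (p - 1 - i) - 1) fun i hi => by
        refine (((sm_self.pow_sub_one hr i).mul_sub_one (one_le_pow₀ (by linarith))
          ((sm_of_norm hr hb hb').pow_sub_one hr (p - 1 - i))).mono hr ?_)
        rw [← pow_add]
        have := mem_range.1 hi
        exact sub_le_sub_right (pow_le_pow_right₀ (by linarith) (by omega)) _
    rwa [card_range] at h1
  · rw [← hc.mul_geom_sum₂, sum_sub_distrib, ← mul_add]
    simp

variable {𝕜 : Type} [NormedField 𝕜] [NormedAlgebra 𝕜 A]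

/-- The first order estimate of a power. -/
theorem norm_pow_sub_le (hr : 0 ≤ r) {b : A} (hb : ‖b‖ ≤ r) (p : ℕ) :
    ‖(1 + b) ^ p - 1 - (p : 𝕜) • b‖ ≤ ‖b‖ * (p * ((1 + r) ^ p - 1)) := by
  obtain ⟨s, h1, h2⟩ := exists_sm_pow (y := (0 : A)) hr (Commute.zero_right b) hb p
  have h3 : Sz (0 : A) r b ‖b‖ := fun i => by
    cases i with
    | zero => simp
    | succ i => simp; positivity
  have h4 := (h1 b _ (norm_nonneg _) h3).norm_le
  have h5 : (1 + b) ^ p - 1 - (p : 𝕜) • b = b * s := by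
    rw [add_zero, one_pow, zero_sub, neg_mul, neg_mul] at h2
    rw [Nat.cast_smul_eq_nsmul, nsmul_eq_mul', ← neg_sub (1 : A), h2]
    abel
  rwa [h5]

/-- An element with small spectral radius whose power is near one is near one. -/
theorem norm_le_of_pow {p : ℕ} (hp : (p : 𝕜) ≠ 0) (hr : 0 ≤ r)
    (hK : p * ((1 + r) ^ p - 1) ≤ ‖(p : 𝕜)‖ / 2) {η : ℝ} (hη : η ≤ r) {C : ℝ} (hC : 0 ≤ C)
    (hy : Sz y r y C) (h : ‖(1 + y) ^ p - 1‖ ≤ η * (‖(p : 𝕜)‖ / 2)) : ‖y‖ ≤ η := by
  have hp0 : 0 < ‖(p : 𝕜)‖ := norm_pos_iff.2 hp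
  have hη0 : 0 ≤ η := nonneg_of_mul_nonneg_left ((norm_nonneg _).trans h) (by positivity)
  have key : ∀ m : ℕ, ∃ b, Commute b y ∧ ‖b‖ ≤ η ∧ Sz y r (y - b) (C * (1 / 2) ^ m) := by
    intro m
    induction m with
    | zero => exact ⟨0, Commute.zero_left _, by simpa using hη0, by simpa using hy⟩
    | succ m ih =>
      obtain ⟨b, h1, h2, h3⟩ := ih
      obtain ⟨s, h4, h5⟩ := exists_sm_pow hr h1 (h2.trans hη) p
      refine ⟨(p : 𝕜)⁻¹ • (((1 + y) ^ p - 1) - ((1 + b) ^ p - 1 - (p : 𝕜) • b)), ?_, ?_, ?_⟩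
      · refine Commute.smul_left ?_ _
        exact ((((Commute.one_left y).add_left (Commute.refl y)).pow_left p).sub_left
          (Commute.one_left y)).sub_left (((((Commute.one_left y).add_left h1).pow_left p).sub_left
          (Commute.one_left y)).sub_left (h1.smul_left _))
      · have h6 := (norm_pow_sub_le (𝕜 := 𝕜) hr (h2.trans hη) p).trans
          (mul_le_mul h2 hK (by
            have : 1 ≤ (1 + r) ^ p := one_le_pow₀ (by linarith)
            have : 0 ≤ (1 + r) ^ p - 1 := by linarith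
            positivity) hη0)
        rw [norm_smul, norm_inv, inv_mul_le_iff₀ hp0]
        refine (norm_sub_le _ _).trans ?_
        linarith
      · have e : y - (p : 𝕜)⁻¹ • (((1 + y) ^ p - 1) - ((1 + b) ^ p - 1 - (p : 𝕜) • b)) =
            (-(p : 𝕜)⁻¹) • ((y - b) * s) := by
          have e1 : ((1 + y) ^ p - 1) - ((1 + b) ^ p - 1 - (p : 𝕜) • b) =
              (p : 𝕜) • y + (y - b) * s := by
            rw [← nsmul_eq_mul', ← Nat.cast_smul_eq_nsmul 𝕜, smul_sub] at h5
            rw [show ((1 + y) ^ p - 1) - ((1 + b) ^ p - 1 - (p : 𝕜) • b) =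
              ((1 + y) ^ p - (1 + b) ^ p) + (p : 𝕜) • b by abel, h5]
            abel
          rw [e1, smul_add, smul_smul, inv_mul_cancel₀ hp, one_smul, neg_smul]
          abel
        rw [e]
        intro i
        have h6 := (h4.mono hr hK) _ _ (by positivity) h3 i
        rw [smul_mul_assoc, norm_smul, norm_neg, norm_inv, inv_mul_le_iff₀ hp0]
        refine h6.trans (le_of_eq ?_)
        ring
  refine le_of_forall_pos_le_add fun ε hε => ?_
  obtain ⟨m, hm⟩ := exists_pow_lt_of_lt_one (div_pos hε (by linarith : 0 < C + 1))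
    (by norm_num : (1 / 2 : ℝ) < 1)
  obtain ⟨b, -, h2, h3⟩ := key m
  have h4 := h3.norm_le
  have h5 : ‖y‖ ≤ ‖b‖ + ‖y - b‖ := by simpa using norm_add_le b (y - b)
  rw [lt_div_iff₀ (by linarith)] at hm
  have h6 : (0 : ℝ) ≤ (1 / 2) ^ m := by positivity
  nlinarith

theorem exists_root_radius (p : ℕ) {c : ℝ} (hc : 0 < c) :
    ∃ r : ℝ, 0 < r ∧ r ≤ 1 ∧ p * ((1 + r) ^ p - 1) ≤ c := by
  have h1 : Continuous fun r : ℝ => p * ((1 + r) ^ p - 1) := by fun_prop
  have h2 : ∀ᶠ r in nhds (0 : ℝ), p * ((1 + r) ^ p - 1) < c :=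
    h1.continuousAt.eventually_lt continuousAt_const (by simpa using hc)
  obtain ⟨ε, hε, h3⟩ := Metric.eventually_nhds_iff.1 h2
  refine ⟨min (ε / 2) 1, by positivity, min_le_right _ _, (h3 ?_).le⟩
  rw [dist_zero_right, Real.norm_of_nonneg (by positivity)]
  exact (min_le_left _ _).trans_lt (by linarith)

end root

end Vale.Agent.P011Z
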