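import Vale.Agent.P011Z.MaxG
import Vale.Agent.P011Z.D1.Newton

/-!
A group of matrices with eigenvalues of absolute value one is covered by finitely many cosets of
the set of the elements with eigenvalues near one.
-/

open Matrix Topology

namespace Vale.Agent.P011Z

variable {n : Type} [Fintype n] [DecidableEq n]

section calculus

variable {Ω : Type} [Field Ω] {Y : Matrix n n Ω} {σ : Finset Ω} {π : Ω → Matrix n n Ω}

theorem IsSpec.sum_mul_sum (h : IsSpec Y σ π) (f g : Ω → Ω) :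
    (∑ μ ∈ σ, f μ • π μ) * ∑ μ ∈ σ, g μ • π μ = ∑ μ ∈ σ, (f μ * g μ) • π μ := by
  rw [Finset.sum_mul]
  refine Finset.sum_congr rfl fun μ hμ => ?_
  rw [Finset.mul_sum, Finset.sum_eq_single μ]
  · rw [smul_mul_smul_comm, h.idem]
  · intro ν _ hν
    rw [smul_mul_smul_comm, h.orth _ _ hν.symm, smul_zero]
  · exact fun h0 => absurd hμ h0

/-- The functional calculus. -/
noncomputable def IsSpec.fc (h : IsSpec Y σ π) : (Ω → Ω) →ₐ[Ω] Matrix n n Ω :=
  AlgHom.ofLinearMap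
    { toFun := fun f => ∑ μ ∈ σ, f μ • π μ
      map_add' := fun f g => by simp [add_smul, Finset.sum_add_distrib]
      map_smul' := fun c f => by simp [Finset.smul_sum, smul_smul] }
    (by simpa using h.sum) fun f g => (h.sum_mul_sum f g).symm

theorem IsSpec.fc_apply (h : IsSpec Y σ π) (f : Ω → Ω) : h.fc f = ∑ μ ∈ σ, f μ • π μ := rfl

theorem IsSpec.isDecC (h : IsSpec Y σ π) : IsDec fun μ : σ => π μ :=
  ⟨by rw [Finset.sum_coe_sort σ π, h.sum], fun μ => h.idem μ,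
    fun μ ν hne => h.orth _ _ fun h0 => hne (Subtype.ext h0)⟩

theorem IsSpec.exists_mult [CharZero Ω] (h : IsSpec Y σ π) : ∃ m : Ω → ℕ,
    (∀ μ, (π μ).trace = m μ) ∧ (∀ μ ∈ σ, 0 < m μ) ∧ ∑ μ ∈ σ, m μ = Fintype.card n := by
  choose m h1 h2 using h.trace_nat
  refine ⟨m, h1, h2, ?_⟩
  have h3 := congrArg trace h.sum
  rw [trace_sum, trace_one] at h3
  simp only [h1] at h3
  exact_mod_cast h3

end calculus

section bounded

variable {F : Type} [NontriviallyNormedField F] [ProperSpace F]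

/-- A multiplicatively closed set of matrices with bounded traces is totally bounded for the
trace pairing. -/
theorem exists_trace_cover {G : Set (Matrix n n F)} {R : ℝ}
    (hG : ∀ x ∈ G, ∀ y ∈ G, ‖(x * y).trace‖ ≤ R) {δ : ℝ} (hδ : 0 < δ) :
    ∃ A ⊆ G, A.Finite ∧ ∀ z ∈ G, ∃ a ∈ A, ∀ g ∈ G, ‖((z - a) * g).trace‖ ≤ δ := by
  classical
  obtain ⟨b, hbG, hspan, hli⟩ := exists_linearIndependent F G
  have hfin : b.Finite := hli.set_finite_of_isNoetherian
  have : Fintype b := hfin.fintype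
  let Φ : Matrix n n F →ₗ[F] (b → F) :=
    LinearMap.pi fun i => (Matrix.traceLinearMap n F F).comp (LinearMap.mulRight F (i : Matrix n n F))
  have hΦ : ∀ y i, Φ y i = (y * (i : Matrix n n F)).trace := fun _ _ => rfl
  let L : (b → F) →ₗ[F] Matrix n n F := Fintype.linearCombination F fun i : b => (i : Matrix n n F)
  have hL : ∀ y ∈ Submodule.span F G, ∃ c, L c = y := by
    intro y hy
    rw [← hspan] at hy
    have h1 : y ∈ LinearMap.range L := by
      rw [Fintype.range_linearCombination, Subtype.range_coe]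
      exact hy
    exact h1
  obtain ⟨T, hT⟩ := (Φ.comp L).rangeRestrict.exists_rightInverse_of_surjective
    (LinearMap.range_rangeRestrict _)
  obtain ⟨C, hC0, hC⟩ := (LinearMap.toContinuousLinearMap T).bound
  have hker : ∀ y, Φ y = 0 → ∀ g ∈ G, (y * g).trace = 0 := by
    intro y hy g hg
    obtain ⟨c, rfl⟩ := hL g (Submodule.subset_span hg)
    simp only [L, Fintype.linearCombination_apply, Finset.mul_sum, mul_smul_comm, trace_sum,
      trace_smul, ← hΦ, hy, Pi.zero_apply, smul_zero, Finset.sum_const_zero]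
  set K : ℝ := Fintype.card b * C * |R| with hK
  have hK0 : 0 ≤ K := by positivity
  have hbound : ∀ y ∈ Submodule.span F G, ∀ g ∈ G, ‖(y * g).trace‖ ≤ K * ‖Φ y‖ := by
    intro y hy g hg
    obtain ⟨c, rfl⟩ := hL y hy
    let v : LinearMap.range (Φ.comp L) := ⟨Φ (L c), c, rfl⟩
    have h1 : Φ (L (T v)) = Φ (L c) := congrArg Subtype.val (LinearMap.congr_fun hT v)
    have h2 := hker (L c - L (T v)) (by rw [map_sub, h1, sub_self]) g hg
    rw [sub_mul, trace_sub, sub_eq_zero] at h2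
    rw [h2]
    have h3 : ‖T v‖ ≤ C * ‖Φ (L c)‖ := hC v
    simp only [L, Fintype.linearCombination_apply, Finset.sum_mul, smul_mul_assoc, trace_sum,
      trace_smul]
    refine (norm_sum_le _ _).trans ?_
    refine (Finset.sum_le_card_nsmul _ _ (C * ‖Φ (L c)‖ * |R|) fun i _ => ?_).trans (le_of_eq ?_)
    · rw [norm_smul]
      exact mul_le_mul ((norm_le_pi_norm _ i).trans h3)
        ((hG _ (hbG i.2) g hg).trans (le_abs_self R)) (norm_nonneg _) (by positivity)
    · rw [Finset.card_univ, nsmul_eq_mul, hK]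
      simp only [L, Fintype.linearCombination_apply]
      ring
  have htb : TotallyBounded (Φ '' G) := by
    refine (isCompact_closedBall (0 : b → F) |R|).totallyBounded.subset ?_
    rintro _ ⟨z, hz, rfl⟩
    rw [mem_closedBall_zero_iff, pi_norm_le_iff_of_nonneg (abs_nonneg R)]
    exact fun i => (hG z hz _ (hbG i.2)).trans (le_abs_self R)
  obtain ⟨t, ht1, ht2, ht3⟩ := Metric.finite_approx_of_totallyBounded htb (δ / (K + 1))
    (by positivity)
  obtain ⟨A, hA1, hA2, rfl⟩ := Set.Finite.exists_subset_finite_image_eq ht2 ht1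
  refine ⟨A, hA1, hA2, fun z hz => ?_⟩
  obtain ⟨_, ⟨a, ha, rfl⟩, h1⟩ := Set.mem_iUnion₂.1 (ht3 ⟨z, hz, rfl⟩)
  refine ⟨a, ha, fun g hg => ?_⟩
  refine (hbound _ (sub_mem (Submodule.subset_span hz) (Submodule.subset_span (hA1 ha))) g hg).trans
    ?_
  rw [Metric.mem_ball, dist_eq_norm, ← map_sub, lt_div_iff₀ (by positivity)] at h1
  have h2 := norm_nonneg (Φ (z - a))
  nlinarith

end bounded

namespace Sys

variable {S : Sys n} {I : Type} [Fintype I] {k : I → ℤ}

theorem MaxG.cover' {F : Type} [NontriviallyNormedField F] [CharZero F] [ProperSpace F]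
    {e : I → Matrix n n F} (Ω : Type) [NormedField Ω] [NormedAlgebra F Ω] [IsGalois F Ω]
    [IsAlgClosed Ω] (h : S.MaxG e k) (hiso : ∀ (φ : Ω ≃ₐ[F] Ω) x, ‖φ x‖ = ‖x‖) {ε : ℝ}
    (hε : 0 < ε) : ∃ A : Finset (S.mon F), ∀ z ∈ S.Z0 h.dec, ∃ a ∈ A, a ∈ S.Z0 h.dec ∧ ∀ μ : Ω,
      (((a⁻¹ * z : S.mon F) : Matrix n n F).map (algebraMap F Ω)).charpoly.IsRoot μ →
        ‖μ - 1‖ < ε := by
  classical
  have : CharZero Ω := charZero_of_injective_algebraMap (algebraMap F Ω).injective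
  have htr : ∀ y : Matrix n n F, ‖(y.map (algebraMap F Ω)).trace‖ = ‖y.trace‖ := by
    intro y
    rw [← AddMonoidHom.map_trace (algebraMap F Ω), norm_algebraMap']
  have hR : ∀ g ∈ S.Z0 h.dec, ‖(g : Matrix n n F).trace‖ ≤ Fintype.card n := by
    intro g hg
    obtain ⟨σ, π, hπ⟩ := exists_spec ((g : Matrix n n F).map (algebraMap F Ω))
    obtain ⟨m, h1, -, h3⟩ := hπ.exists_mult
    have h4 := hπ.trace_pow 1
    rw [pow_one] at h4
    rw [← htr, h4, ← h3, Nat.cast_sum]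
    refine (norm_sum_le _ _).trans (Finset.sum_le_sum fun μ hμ => ?_)
    rw [norm_mul, pow_one, h.norm_eig_one hiso hg (hπ.isRoot.1 hμ), one_mul, h1]
    simpa using Nat.norm_cast_le (α := Ω) (m μ)
  obtain ⟨δ, hδ, hN⟩ := newton_small Ω (Fintype.card n) hε
  obtain ⟨A, hA1, hA2, hA3⟩ := exists_trace_cover
    (G := Subtype.val '' (S.Z0 h.dec : Set (S.mon F))) (R := Fintype.card n) (by
      rintro _ ⟨x, hx, rfl⟩ _ ⟨y, hy, rfl⟩
      exact hR (x * y) (mul_mem hx hy)) hδ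
  refine ⟨(hA2.preimage Subtype.val_injective.injOn).toFinset, fun z hz => ?_⟩
  obtain ⟨a0, ha0, h1⟩ := hA3 z ⟨z, hz, rfl⟩
  obtain ⟨a, ha, rfl⟩ := hA1 ha0
  refine ⟨a, by simpa using ha0, ha, fun μ hμ => ?_⟩
  have hu : a⁻¹ * z ∈ S.Z0 h.dec := mul_mem (inv_mem ha) hz
  set u := a⁻¹ * z with hudef
  have h2 : ∀ i : ℕ, ‖((u : Matrix n n F) ^ (i + 1)).trace - ((u : Matrix n n F) ^ i).trace‖ ≤ δ := by
    intro i
    have h3 := h1 _ ⟨u ^ i * a⁻¹, mul_mem (pow_mem hu i) (inv_mem ha), rfl⟩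
    rw [Submonoid.coe_mul, ← mul_assoc, trace_mul_comm, ← mul_assoc, mul_sub, coe_inv_mul,
      ← Submonoid.coe_mul, ← hudef, sub_mul, one_mul, trace_sub, SubmonoidClass.coe_pow,
      ← pow_succ'] at h3
    exact h3
  obtain ⟨σ, π, hπ⟩ := exists_spec ((u : Matrix n n F).map (algebraMap F Ω))
  obtain ⟨m, h3, h4, h5⟩ := hπ.exists_mult
  have h6 : ∀ j i : ℕ, ‖∑ ν ∈ σ, (ν - 1) ^ (j + 1) * ν ^ i * m ν‖ ≤ 2 ^ j * δ := by
    intro j
    induction j with
    | zero =>
      intro i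
      have h7 := h2 i
      rw [← trace_sub, ← htr, Matrix.map_sub _ (map_sub _), trace_sub, Matrix.map_pow,
        Matrix.map_pow, hπ.trace_pow, hπ.trace_pow, ← Finset.sum_sub_distrib] at h7
      rw [pow_zero, one_mul]
      refine le_of_eq_of_le (congrArg norm (Finset.sum_congr rfl fun ν _ => ?_)) h7
      rw [h3]
      ring
    | succ j ih =>
      intro i
      have e : ∑ ν ∈ σ, (ν - 1) ^ (j + 1 + 1) * ν ^ i * m ν =
          ∑ ν ∈ σ, (ν - 1) ^ (j + 1) * ν ^ (i + 1) * m ν -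
            ∑ ν ∈ σ, (ν - 1) ^ (j + 1) * ν ^ i * m ν := by
        rw [← Finset.sum_sub_distrib]
        exact Finset.sum_congr rfl fun ν _ => by ring
      rw [e, pow_succ]
      have h7 := ih (i + 1)
      have h8 := ih i
      refine (norm_sub_le _ _).trans ?_
      linarith
  have hμσ := hπ.isRoot.2 hμ
  refine hN (Σ ν : σ, Fin (m ν)) (fun q => (q.1 : Ω) - 1) ?_ (fun q => ?_) (fun j => ?_)
    ⟨⟨μ, hμσ⟩, ⟨0, h4 μ hμσ⟩⟩
  · rw [Fintype.card_sigma, ← h5, ← Finset.sum_coe_sort σ m]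
    simp
  · refine (norm_sub_le _ _).trans ?_
    rw [h.norm_eig_one hiso hu (hπ.isRoot.1 q.1.2), norm_one]
    norm_num
  · refine le_of_eq_of_le (congrArg norm ?_) (h6 j 0)
    rw [Fintype.sum_sigma, ← Finset.sum_coe_sort σ]
    refine Finset.sum_congr rfl fun ν _ => ?_
    simp [mul_comm]

theorem relIndex_of_cover {G : Type} [Group G] {M Z : Subgroup G} (A : Finset G)
    (h : ∀ z ∈ Z, ∃ a ∈ A, a ∈ Z ∧ a⁻¹ * z ∈ M) : M.relIndex Z ≠ 0 := by
  have : Finite {a : Z // (a : G) ∈ A} :=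
    (A.finite_toSet.preimage Subtype.val_injective.injOn).to_subtype
  refine Subgroup.index_ne_zero_of_finite (hH := ?_)
  refine Finite.of_surjective (fun a : {a : Z // (a : G) ∈ A} =>
    (QuotientGroup.mk a.1 : Z ⧸ M.subgroupOf Z)) fun q => ?_
  obtain ⟨z, rfl⟩ := QuotientGroup.mk_surjective q
  obtain ⟨a, ha, haZ, h1⟩ := h z z.2
  exact ⟨⟨⟨a, haZ⟩, ha⟩, QuotientGroup.eq.2 h1⟩

end Sys

end Vale.Agent.P011Z
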